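import Vale.Agent.P057SY.Defs
import Vale.Agent.P057DW.Out
import Vale.Agent.P057PC.Cub

/-! All rounds from one round. -/

set_option linter.all false

open Matrix Finset
open Vale.Agent.P267.H775 Vale.Agent.P057G Vale.Agent.P057PC Vale.Agent.P057TP Vale.Agent.P057SY
open Vale.Agent.P057RG Vale.Agent.P057DW Vale.Agent.P057DP

namespace Vale.Agent.P057SI

noncomputable section

variable {C W : Type} [Fintype W] [DecidableEq W] {T : Tow} {Z : Sys T W Unit} {cl : W → C}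
  {m b τ : ℕ} {f : ℤ → ℝ} {θ Y Y' B κ σ : ℝ}

theorem ks_mono (h : KS Z cl m f θ b τ Y B κ σ) (hY : Y ≤ Y') : KS Z cl m f θ b τ Y' B κ σ := by
  obtain ⟨E, J, _, _, _, _, X, Φ, Gk, K, u, n, γ, h1, h2, h3, h4, h5, h6, h7, h8, h9, h10, h11,
    h12, h13⟩ := h
  have e := Real.exp_le_exp.2 hY
  exact ⟨E, J, _, _, _, _, X, Φ, Gk, K, u, n, γ, h1, ⟨h2.tr, h2.card.trans hY, h2.sep,
    h2.cx.trans e⟩, h3, h4.trans hY, h5, h6, fun j => (h7 j).trans e, h8, h9, h10, h11,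
    fun z hz => (h12 z hz).trans e, h13⟩

theorem sp_of_ks (h : KS Z cl m f θ 0 τ Y B κ σ) : Z.SP cl m f θ B κ σ := by
  obtain ⟨E, J, _, _, _, _, X, Φ, Gk, K, u, n, γ, -, -, -, -, h5, h6, -, h8, -, h10, h11, -,
    h13⟩ := h
  have h0 : ∀ x, Φ x = 0 := fun x => funext fun j => by
    have := (h5 j).deg ∅ (Or.inl (Nat.zero_le _)) x
    rwa [image_empty, MS.alt_empty] at this
  simp only [h0] at h13
  have h1 := th_pos h6 0
  refine ⟨fun z => u z * (thK Gk K (0 - γ z) / th Gk 0), fun z z' e => by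
    simp only [h8 z z' e, h10 z z' e], fun z => ?_, h13⟩
  have h2 := div_nonneg (thK_pos h6 K (0 - γ z)).le h1.le
  exact ⟨mul_nonneg (h11 z).1 h2, mul_le_one₀ (h11 z).2 h2
    ((div_le_one h1).2 ((le_abs_self _).trans (abs_thK_le h6 K _)))⟩

/-- on a regular tower the excess of a state is at least a fraction of its level -/
theorem st_reg {S : Type} [Fintype S] {Z : Sys T W S} {s : ℕ} {N n A : ℝ} (hT : T.Ok s N)
    (hZ : Z.Ok) (hL : T.LFd (m - 1) n A) (hn : (Fintype.card W + Fintype.card S : ℝ) ≤ n)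
    (hA : 2 * Fintype.card S + 2 ≤ Real.exp A) {H : (Lb T cl S m → ℤ) → ℝ} {δ : ℝ}
    (h : Z.St cl m H B κ σ) (hσ : 0 ≤ σ) (hδ : 0 ≤ δ) : Z.St cl m H B (κ - δ) (δ / 2) := by
  classical
  have hG := P057GH.pd_Gam hT.pd cl S m
  have h0 : (0 : ℝ) < 2 * Fintype.card S + 2 := by positivity
  have h1 := (cub_all (cl := cl) (m := m) hT hZ (by omega) hL
    (Nat.le_floor (by exact_mod_cast hn)) (Real.exp_pos A)).self hG fun v => by
      rw [qq_smul_mat]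
      exact le_mul_of_one_le_left (qq_nonneg hG.posSemidef v) ((one_le_div h0).2 hA)
  have h2 : Real.exp (-A) ≤ 1 / 2 := by
    rw [Real.exp_neg, inv_eq_one_div]
    exact one_div_le_one_div_of_le two_pos (by linarith [(Nat.cast_nonneg _ : (0 : ℝ) ≤
      Fintype.card S)])
  have h3 : 1 / 2 ≤ ∑' z, Z.w cl m z := by
    have := (abs_le.1 h1).1
    change _ ≤ (∑' z, Z.w cl m z) - 1 at this
    linarith
  have h4 := P057GH.summable_w (cl := cl) (m := m) hT hZ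
  have h5 := summable_mul_real h4 (P057GH.w_nonneg Z) (f := fun z => H z - κ) (C := B + |κ|)
    fun z => (abs_sub _ _).trans (by linarith [h.1 z])
  refine ⟨h.1, ?_⟩
  simp only [← sub_add, mul_add]
  rw [h5.tsum_add (h4.mul_right δ), tsum_mul_right]
  nlinarith [h.2]

/-- the excess is made large by regularisation -/
theorem st_big {s : ℕ} (hG : REG s) : ∃ c : ℕ, ∀ (N : ℝ) (P : ℕ → ℝ) (T : Tow) (C W S : Type)
    [Fintype W] [DecidableEq W] [Fintype S] (cl : W → C) (m : ℕ) (Z : Sys T W S)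
    (H : (Lb T cl S m → ℤ) → ℝ) (B κ σ : ℝ), Lad s N c P → T.Ok s N → T.Cx N P → Z.Ok → 0 < m →
    m ≤ s + 1 → (Fintype.card W + Fintype.card S : ℝ) ≤ P m → B ≤ Real.exp (P m) →
    Real.exp (-P m) ≤ κ → Real.exp (-P 0) ≤ σ → Z.St cl m H B κ σ →
    ∃ (T' : Tow) (Z' : Sys T' W S) (Ψ : Fam ℤ T.ι T'.ι W S), T'.Ok s N ∧ Z'.Ok ∧ Up m T' T ∧
      Sub cl m Z' Z Ψ (Real.exp (P (s + 1))) (P 0 ^ c) ∧ T.Grow N T' (fun e => P e ^ c) ∧
      T'.LFd (m - 1) (P (m - 1)) (P m) ∧ Z'.St cl m (fun z => H (Ψ.sub cl m z)) B (κ / 4) (κ / 8) := by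
  obtain ⟨c, hG⟩ := hG
  refine ⟨c + 6, fun N P T C W S _ _ _ cl m Z H B κ σ hL hT hC hZ h0 hm hW hB hκ hσ hS => ?_⟩
  obtain ⟨j, rfl⟩ : ∃ j, m = j + 1 := ⟨m - 1, by omega⟩
  have p6 : ∀ e, (6 : ℝ) ≤ P e := fun e => le_trans (by exact_mod_cast Nat.le_add_left 6 c) (hL.big e)
  have pc : ∀ e, P e ^ c ≤ P e ^ (c + 6) := fun e =>
    pow_le_pow_right₀ (by linarith [p6 e]) (by omega)
  obtain ⟨T', Z', Ψ, g1, g2, g3, g4, g5, g6, -, -, g7, -⟩ := hG N P T C W S cl (j + 1) j Z H B κ σ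
    (lad_mono hL (by exact_mod_cast Nat.le_add_right c 6)) hT hC hZ j.lt_succ_self (by omega) hW hB
    hκ hσ hS
  have k0 := (Real.exp_pos _).trans_le hκ
  have k1 : 1 / P 0 ≤ 1 / 2 := one_div_le_one_div_of_le two_pos (by linarith [p6 0])
  have k2 : 2 * Fintype.card S + 2 ≤ Real.exp (P (j + 1)) := by
    have := Real.quadratic_le_exp_of_nonneg (x := P (j + 1)) (by linarith [p6 (j + 1)])
    nlinarith [p6 (j + 1), (Nat.cast_nonneg _ : (0 : ℝ) ≤ Fintype.card W)]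
  refine ⟨T', Z', Ψ, g1, g2, g3, sub_mono g4 le_rfl (pc 0), grow_mono g6 pc, g7, st_mono g1 g2
    (st_reg (m := j + 1) (δ := κ / 4) g1 g2 g7 (hW.trans (hL.anti j)) k2 g5
      (mul_pos ((Real.exp_pos _).trans_le hσ) (Real.exp_pos _)).le (by linarith)) ?_ (by linarith)⟩
  nlinarith

theorem syi_aux {s : ℕ} (hR : ROUND s) (hG : REG s) (n : ℕ) : ∀ τ : ℕ, ∃ c : ℕ, ∀ (N : ℝ)
    (P : ℕ → ℝ) (T : Tow) (C W : Type) [Fintype W] [DecidableEq W] (cl : W → C) (m b : ℕ)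
    (Z : Sys T W Unit) (f : ℤ → ℝ) (θ B κ σ : ℝ), b ≤ n →
    Lad s N c P → T.Ok s N → T.Cx N P → Z.Ok → b < m → m ≤ s + 1 → Unit01 f → 0 ≤ θ → θ ≤ 4 →
    (Fintype.card W : ℝ) ≤ P m → ((cells cl).card : ℝ) ≤ P m → B ≤ Real.exp (P m) →
    Real.exp (-P m) ≤ κ → Real.exp (-P 0) ≤ σ → KS Z cl m f θ b τ (P m) B κ σ →
    ∃ (T' : Tow) (Z' : Sys T' W Unit) (B' κ' σ' : ℝ), T'.Ok s N ∧ Z'.Ok ∧ Up m T' T ∧
      T.Grow N T' (fun e => P e ^ c) ∧ B' ≤ Real.exp (P m ^ c) ∧ Real.exp (-P m ^ c) ≤ κ' ∧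
      Real.exp (-P 1 ^ c) ≤ σ' ∧ Z'.SP cl m f θ B' κ' σ' := by
  induction n with
  | zero =>
    intro τ
    obtain ⟨c, hG⟩ := st_big hG
    refine ⟨2 * c + 3, fun N P T C W _ _ cl m b Z f θ B κ σ hb hL hT hC hZ h0 hm hf _ _ hW _ hB hκ
      hσ hK => ?_⟩
    obtain rfl := Nat.le_zero.1 hb
    obtain ⟨u, h1, h2, h3⟩ := sp_of_ks hK
    have c3 : ((2 * c + 3 : ℕ) : ℝ) = 2 * c + 3 := by push_cast; rfl
    have c0 : (0 : ℝ) ≤ c := Nat.cast_nonneg c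
    have p3 : ∀ e, (3 : ℝ) ≤ P e := fun e => by linarith [hL.big e]
    have p2 : ∀ e, P e + 3 ≤ P e ^ 2 := fun e => by nlinarith [p3 e]
    have pc : ∀ e k, k ≤ 2 * c + 3 → P e ^ k ≤ P e ^ (2 * c + 3) := fun e k h =>
      pow_le_pow_right₀ (by linarith [p3 e]) h
    obtain ⟨T', Z', Ψ, g1, g2, g3, g4, g5, -, g6⟩ := hG N (fun e => P e ^ 2) T C W Unit cl m Z _ B
      κ σ (lad_mono (lad_pow hL (by linarith) (a := fun _ => 2) (fun _ => le_rfl) (fun _ => le_rfl)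
        (by push_cast; linarith)) (by linarith)) hT (cx_mono hC fun e => by linarith [p2 e]) hZ h0 hm
      (by simp only [Fintype.card_unit, Nat.cast_one]; linarith [p2 m])
      (hB.trans (Real.exp_le_exp.2 (by linarith [p2 m])))
      ((Real.exp_le_exp.2 (by linarith [p2 m])).trans hκ)
      ((Real.exp_le_exp.2 (by linarith [p2 0])).trans hσ) h3
    have k0 := (Real.exp_pos _).trans_le hκ
    have k1 : Real.exp (-P m ^ 2) ≤ κ / 8 := by
      have e1 : Real.exp (-P m ^ 2) * Real.exp 3 ≤ κ := by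
        rw [← Real.exp_add]
        exact (Real.exp_le_exp.2 (by linarith [p2 m])).trans hκ
      have e2 := Real.quadratic_le_exp_of_nonneg (x := 3) (by norm_num)
      nlinarith [Real.exp_pos (-P m ^ 2)]
    have k2 := pc m 2 (by omega)
    have k3 : P m ^ 2 ≤ P 1 ^ (2 * c + 3) := (pow_le_pow_left₀ (by linarith [p3 m])
      (lad_le hL h0) 2).trans (pc 1 2 (by omega))
    exact ⟨T', Z', B, κ / 4, κ / 8, g1, g2, g3, grow_mono g5 fun e =>
      (pow_mul _ _ _).symm.trans_le (pc e _ (by omega)),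
      hB.trans (Real.exp_le_exp.2 (by linarith [p2 m])),
      (Real.exp_le_exp.2 (neg_le_neg k2)).trans (by linarith),
      (Real.exp_le_exp.2 (neg_le_neg k3)).trans k1, sp_sub g4 h1 h2 g6⟩
  | succ n ih =>
    intro τ
    obtain ⟨c₀, τ', hR⟩ := hR τ
    obtain ⟨c₁, h1⟩ := ih τ'
    obtain ⟨c₂, h2⟩ := ih τ
    refine ⟨(c₀ + 3) * (c₁ + 1) + c₁ + c₂, fun N P T C W _ _ cl m b Z f θ B κ σ hb hL hT hC hZ h0 hm
      hf t0 t4 hW hc hB hκ hσ hK => ?_⟩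
    set c := (c₀ + 3) * (c₁ + 1) + c₁ + c₂ with e
    have c1 : c₀ + 3 ≤ c := by nlinarith [Nat.zero_le (c₀ * c₁)]
    have p3 : ∀ e, (3 : ℝ) ≤ P e := fun e =>
      le_trans (by exact_mod_cast (show 3 ≤ c by omega)) (hL.big e)
    have p0 : ∀ e, (0 : ℝ) ≤ P e := fun e => by linarith [p3 e]
    have pc : ∀ e {k k'}, k ≤ k' → P e ^ k ≤ P e ^ k' := fun e _ _ h =>
      pow_le_pow_right₀ (by linarith [p3 e]) h
    rcases hb.eq_or_lt with rfl | hb
    · obtain ⟨T₁, Z₁, B₁, κ₁, σ₁, g1, g2, g3, g4, g5, g6, g7, g8⟩ := hR N P T C W cl m n Z f θ B κ σ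
        (lad_mono hL (by exact_mod_cast (show c₀ ≤ c by omega))) hT hC hZ h0 hm hf t0 t4 hW hc hB hκ
        hσ hK
      have q1 : ∀ e, P e ≤ P e ^ (c₀ + 3) := fun e => by simpa using pc e (show 1 ≤ c₀ + 3 by omega)
      have q2 : ∀ e, P e ^ c₀ ≤ P e ^ (c₀ + 3) := fun e => pc e (by omega)
      have q3 : ∀ e, (P e ^ (c₀ + 3)) ^ c₁ ≤ P e ^ c := fun e =>
        (pow_mul _ _ _).symm.trans_le (pc e (by nlinarith))
      obtain ⟨T₂, Z₂, B₂, κ₂, σ₂, k1, k2, k3, k4, k5, k6, k7, k8⟩ := h1 N (fun e => P e ^ (c₀ + 3))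
        T₁ C W cl m n Z₁ f θ B₁ κ₁ σ₁ le_rfl (lad_mono (lad_pow hL
          (by exact_mod_cast (show 1 ≤ c by omega)) (a := fun _ => c₀ + 3)
          (fun _ => le_rfl) (fun _ => by omega) (by exact_mod_cast c1))
          (by exact_mod_cast (show c₁ ≤ c by omega))) g1
        (cx_up hC g3 g4 (fun e => pow_nonneg (p0 e) _) q1 fun e _ => by
          have a1 := pow_le_pow_left₀ (p0 _) (hL.anti e) c₀
          have a2 : 1 ≤ P e ^ c₀ := one_le_pow₀ (by linarith [p3 e])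
          have a3 := mul_le_mul_of_nonneg_left a1 (show 0 ≤ P e + 1 by linarith [p0 e])
          have a4 : 3 * P e ≤ P e ^ 3 := by nlinarith [p3 e, sq_nonneg (P e)]
          rw [pow_add]
          nlinarith [p3 e, mul_le_mul_of_nonneg_left a4 (zero_le_one.trans a2)])
        g2 (by omega) hm hf t0 t4 (hW.trans (q1 m)) (hc.trans (q1 m))
        (g5.trans (Real.exp_le_exp.2 (q2 m))) ((Real.exp_le_exp.2 (neg_le_neg (q2 m))).trans g6)
        ((Real.exp_le_exp.2 (neg_le_neg ((pow_le_pow_left₀ (p0 1) (hL.anti 0) _).trans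
          (q2 0)))).trans g7) (ks_mono g8 (q2 m))
      refine ⟨T₂, Z₂, B₂, κ₂, σ₂, k1, k2, up_trans k3 g3, fun e => grow_num (dm_nonneg T e)
        (g4 e).1 (g4 e).2 (k4 e).1 (k4 e).2 (pow_nonneg (p0 _) _) (pow_nonneg (pow_nonneg (p0 _) _) _)
        ?_, k5.trans (Real.exp_le_exp.2 (q3 m)), (Real.exp_le_exp.2 (neg_le_neg (q3 m))).trans k6,
        (Real.exp_le_exp.2 (neg_le_neg (q3 1))).trans k7, k8⟩
      have a1 : 1 ≤ P (e + 1) ^ c₀ := one_le_pow₀ (by linarith [p3 (e + 1)])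
      have a2 : 1 ≤ (P (e + 1) ^ (c₀ + 3)) ^ c₁ := one_le_pow₀ (a1.trans (q2 _))
      have a3 := pc (e + 1) (show 1 + c₀ + (c₀ + 3) * c₁ ≤ c by nlinarith)
      rw [pow_add, pow_add, pow_mul, pow_one] at a3
      nlinarith [mul_le_mul_of_nonneg_right (p3 (e + 1)) (mul_nonneg (zero_le_one.trans a1)
        (zero_le_one.trans a2)), mul_le_mul_of_nonneg_left a2 (zero_le_one.trans a1),
        mul_le_mul_of_nonneg_right a1 (zero_le_one.trans a2)]
    · obtain ⟨T₂, Z₂, B₂, κ₂, σ₂, k1, k2, k3, k4, k5, k6, k7, k8⟩ := h2 N P T C W cl m b Z f θ B κ σ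
        (by omega) (lad_mono hL (by exact_mod_cast (show c₂ ≤ c by omega))) hT hC hZ h0 hm hf t0 t4
        hW hc hB hκ hσ hK
      have q : ∀ e, P e ^ c₂ ≤ P e ^ c := fun e => pc e (by omega)
      exact ⟨T₂, Z₂, B₂, κ₂, σ₂, k1, k2, k3, grow_mono k4 q, k5.trans (Real.exp_le_exp.2 (q m)),
        (Real.exp_le_exp.2 (neg_le_neg (q m))).trans k6,
        (Real.exp_le_exp.2 (neg_le_neg (q 1))).trans k7, k8⟩

theorem syi {s : ℕ} (hR : ROUND s) (hG : REG s) : SYI s := fun τ => by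
  obtain ⟨c, h⟩ := syi_aux hR hG s τ
  exact ⟨c, fun N P T C W _ _ cl m b Z f θ B κ σ hL hT hC hZ h0 hm =>
    h N P T C W cl m b Z f θ B κ σ (by omega) hL hT hC hZ h0 hm⟩

end

end Vale.Agent.P057SI
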